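/-
P163 (two-dimensional spin models): the sphere measure and plane rotations.
-/
import Mathlib

open MeasureTheory Filter Topology
open scoped InnerProductSpace Pointwise

noncomputable section

namespace Vale.Agent.P163.Decay

variable {n : ℕ} {ι : Type*} [Fintype ι]

/-- The spin space. -/
abbrev Sn (n : ℕ) := Metric.sphere (0 : EuclideanSpace ℝ (Fin n)) 1

/-- The uniform measure on the spin space. -/
abbrev om (n : ℕ) : Measure (Sn n) := (volume : Measure (EuclideanSpace ℝ (Fin n))).toSphere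

/-- The product measure on configurations. -/
abbrev cm (ι : Type*) [Fintype ι] (n : ℕ) : Measure (ι → Sn n) := Measure.pi fun _ => om n

/-- A coordinate of a spin. -/
def co (s : Sn n) (k : Fin n) : ℝ := s.1 k

@[fun_prop]
lemma continuous_co (k : Fin n) : Continuous fun s : Sn n => co s k :=
  (PiLp.continuous_apply 2 _ k).comp continuous_subtype_val

lemma inner_eq (a b : Sn n) : ⟪(a : EuclideanSpace ℝ (Fin n)), b⟫_ℝ = ∑ k, co a k * co b k := by
  simp [PiLp.inner_apply, co, mul_comm]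

lemma sum_co_sq (a : Sn n) : ∑ k, co a k ^ 2 = 1 := by
  have h : ⟪(a : EuclideanSpace ℝ (Fin n)), a⟫_ℝ = 1 := by
    rw [real_inner_self_eq_norm_sq, mem_sphere_zero_iff_norm.1 a.2, one_pow]
  rw [← h, inner_eq]
  simp [sq]

lemma co_sq_add_le (a : Sn n) {i j : Fin n} (hij : i ≠ j) : co a i ^ 2 + co a j ^ 2 ≤ 1 := by
  rw [← sum_co_sq a, ← Finset.sum_pair (f := fun k => co a k ^ 2) hij]
  exact Finset.sum_le_sum_of_subset_of_nonneg (Finset.subset_univ _) fun k _ _ => sq_nonneg _

lemma abs_inner_le (a b : Sn n) : |⟪(a : EuclideanSpace ℝ (Fin n)), b⟫_ℝ| ≤ 1 := by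
  simpa [mem_sphere_zero_iff_norm.1 a.2, mem_sphere_zero_iff_norm.1 b.2] using
    abs_real_inner_le_norm (a : EuclideanSpace ℝ (Fin n)) b

/-- A linear isometry acting on spins. -/
def act (f : EuclideanSpace ℝ (Fin n) ≃ₗᵢ[ℝ] EuclideanSpace ℝ (Fin n)) (s : Sn n) : Sn n :=
  ⟨f s, by rw [mem_sphere_zero_iff_norm, f.norm_map]; exact mem_sphere_zero_iff_norm.1 s.2⟩

lemma continuous_act (f : EuclideanSpace ℝ (Fin n) ≃ₗᵢ[ℝ] EuclideanSpace ℝ (Fin n)) :
    Continuous (act f) :=
  (f.continuous.comp continuous_subtype_val).subtype_mk _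

lemma mp_act (f : EuclideanSpace ℝ (Fin n) ≃ₗᵢ[ℝ] EuclideanSpace ℝ (Fin n)) :
    MeasurePreserving (act f) (om n) (om n) := by
  refine ⟨(continuous_act f).measurable, Measure.ext fun s hs => ?_⟩
  rw [Measure.map_apply (continuous_act f).measurable hs,
    Measure.toSphere_apply' _ ((continuous_act f).measurable hs), Measure.toSphere_apply' _ hs]
  congr 1
  have h1 : (Set.Ioo (0 : ℝ) 1 • ((↑) '' (act f ⁻¹' s)) : Set (EuclideanSpace ℝ (Fin n)))
      = f ⁻¹' (Set.Ioo (0 : ℝ) 1 • ((↑) '' s)) := by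
    ext x
    simp only [Set.mem_smul, Set.mem_image, Set.mem_preimage]
    constructor
    · rintro ⟨r, hr, y, ⟨z, hz, rfl⟩, rfl⟩
      exact ⟨r, hr, f z, ⟨_, hz, rfl⟩, (map_smul f r _).symm⟩
    · rintro ⟨r, hr, y, ⟨z, hz, rfl⟩, hx⟩
      refine ⟨r, hr, f.symm z, ⟨act f.symm z, ?_, rfl⟩, ?_⟩
      · have : act f (act f.symm z) = z := Subtype.ext (f.apply_symm_apply _)
        rwa [this]
      · rw [← map_smul, hx, f.symm_apply_apply]
  rw [h1]
  exact f.measurePreserving.measure_preimage_emb f.toHomeomorph.measurableEmbedding _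

/-- Invariance of integrals under site-wise isometries. -/
lemma integral_act {F : Type*} [NormedAddCommGroup F] [NormedSpace ℝ F]
    (f : ι → EuclideanSpace ℝ (Fin n) ≃ₗᵢ[ℝ] EuclideanSpace ℝ (Fin n))
    {G : (ι → Sn n) → F} (hG : Continuous G) :
    ∫ σ, G (fun i => act (f i) (σ i)) ∂cm ι n = ∫ σ, G σ ∂cm ι n := by
  have h := measurePreserving_pi (fun _ : ι => om n) (fun _ : ι => om n) fun i => mp_act (f i)
  have h2 := integral_map (μ := Measure.pi fun _ : ι => om n) h.measurable.aemeasurable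
    (f := G) hG.aestronglyMeasurable
  rw [h.map_eq] at h2
  exact h2.symm

lemma integrable_cm {F : Type*} [NormedAddCommGroup F] {G : (ι → Sn n) → F} (hG : Continuous G) :
    Integrable G (cm ι n) :=
  hG.integrable_of_hasCompactSupport (HasCompactSupport.of_compactSpace _)

lemma integral_pos_cm (hn : 0 < n) {G : (ι → Sn n) → ℝ} (hG : Continuous G) (hpos : ∀ σ, 0 < G σ) :
    0 < ∫ σ, G σ ∂cm ι n := by
  have : Nontrivial (EuclideanSpace ℝ (Fin n)) :=
    Module.nontrivial_of_finrank_pos (R := ℝ) (by rw [finrank_euclideanSpace_fin]; exact hn)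
  rw [integral_pos_iff_support_of_nonneg (fun σ => (hpos σ).le) (integrable_cm hG),
    Function.support_eq_univ fun σ => (hpos σ).ne', Measure.pi_univ]
  exact pos_iff_ne_zero.2 (Finset.prod_ne_zero_iff.2 fun _ _ =>
    (Measure.measure_univ_ne_zero).2 (Measure.toSphere_ne_zero _))

/-- The rotation by angle `θ` in the plane of two coordinates, as a linear map. -/
def rotLin (i j : Fin n) (θ : ℝ) : EuclideanSpace ℝ (Fin n) →ₗ[ℝ] EuclideanSpace ℝ (Fin n) where
  toFun v := WithLp.toLp 2 fun k => if k = i then Real.cos θ * v i - Real.sin θ * v j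
    else if k = j then Real.sin θ * v i + Real.cos θ * v j else v k
  map_add' v w := by
    ext k
    simp only [PiLp.add_apply]
    split_ifs <;> ring
  map_smul' c v := by
    ext k
    simp only [PiLp.smul_apply, smul_eq_mul, RingHom.id_apply]
    split_ifs <;> ring

lemma inner_rotLin {i j : Fin n} (hij : i ≠ j) (θ φ : ℝ) (v w : EuclideanSpace ℝ (Fin n)) :
    ⟪rotLin i j θ v, rotLin i j φ w⟫_ℝ = ⟪v, w⟫_ℝ
      + (Real.cos (θ - φ) - 1) * (v i * w i + v j * w j)
      + Real.sin (θ - φ) * (v i * w j - v j * w i) := by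
  simp only [PiLp.inner_apply, RCLike.inner_apply, conj_trivial, rotLin, LinearMap.coe_mk,
    AddHom.coe_mk]
  rw [← Finset.add_sum_erase _ _ (Finset.mem_univ i),
    ← Finset.add_sum_erase (f := fun k => w k * v k) _ (Finset.mem_univ i)]
  have hj : j ∈ Finset.univ.erase i := Finset.mem_erase.2 ⟨Ne.symm hij, Finset.mem_univ j⟩
  rw [← Finset.add_sum_erase _ _ hj, ← Finset.add_sum_erase (f := fun k => w k * v k) _ hj]
  have hrest : ∀ k ∈ (Finset.univ.erase i).erase j, k ≠ i ∧ k ≠ j := fun k hk =>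
    ⟨(Finset.mem_erase.1 (Finset.mem_erase.1 hk).2).1, (Finset.mem_erase.1 hk).1⟩
  rw [Finset.sum_congr rfl (g := fun k => w k * v k) fun k hk => by
    rw [if_neg (hrest k hk).1, if_neg (hrest k hk).2, if_neg (hrest k hk).1, if_neg (hrest k hk).2]]
  simp only [if_true, if_neg (Ne.symm hij)]
  rw [Real.cos_sub, Real.sin_sub]
  ring

/-- The rotation by angle `θ` in the plane of two coordinates. -/
def rot {i j : Fin n} (hij : i ≠ j) (θ : ℝ) :
    EuclideanSpace ℝ (Fin n) ≃ₗᵢ[ℝ] EuclideanSpace ℝ (Fin n) :=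
  (rotLin i j θ |>.isometryOfInner fun v w => by simp [inner_rotLin hij]).toLinearIsometryEquiv rfl

lemma co_rot {i j : Fin n} (hij : i ≠ j) (θ : ℝ) (a : Sn n) (k : Fin n) :
    co (act (rot hij θ) a) k = if k = i then Real.cos θ * co a i - Real.sin θ * co a j
      else if k = j then Real.sin θ * co a i + Real.cos θ * co a j else co a k := by
  rfl

lemma inner_act_rot {i j : Fin n} (hij : i ≠ j) (θ φ : ℝ) (a b : Sn n) :
    ⟪(act (rot hij θ) a : EuclideanSpace ℝ (Fin n)), act (rot hij φ) b⟫_ℝ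
      = ⟪(a : EuclideanSpace ℝ (Fin n)), b⟫_ℝ
        + (Real.cos (θ - φ) - 1) * (co a i * co b i + co a j * co b j)
        + Real.sin (θ - φ) * (co a i * co b j - co a j * co b i) :=
  inner_rotLin hij θ φ _ _

lemma act_rot_neg {i j : Fin n} (hij : i ≠ j) (θ : ℝ) (a : Sn n) :
    act (rot hij (-θ)) (act (rot hij θ) a) = a := by
  refine Subtype.ext (PiLp.ext fun k => ?_)
  show co (act (rot hij (-θ)) (act (rot hij θ) a)) k = co a k
  simp only [co_rot, Real.cos_neg, Real.sin_neg, if_true, if_neg (Ne.symm hij)]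
  have := Real.sin_sq_add_cos_sq θ
  split_ifs with h1 h2
  · subst h1; linear_combination (co a k) * this
  · subst h2; linear_combination (co a k) * this
  · rfl

/-- A permutation of coordinates. -/
def perm (e : Equiv.Perm (Fin n)) : EuclideanSpace ℝ (Fin n) ≃ₗᵢ[ℝ] EuclideanSpace ℝ (Fin n) :=
  LinearIsometryEquiv.piLpCongrLeft 2 ℝ ℝ e

lemma co_perm (e : Equiv.Perm (Fin n)) (a : Sn n) (k : Fin n) :
    co (act (perm e) a) k = co a (e.symm k) := by
  simp [co, act, perm, LinearIsometryEquiv.piLpCongrLeft_apply]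

lemma inner_perm (e : Equiv.Perm (Fin n)) (a b : Sn n) :
    ⟪(act (perm e) a : EuclideanSpace ℝ (Fin n)), act (perm e) b⟫_ℝ
      = ⟪(a : EuclideanSpace ℝ (Fin n)), b⟫_ℝ :=
  (perm e).inner_map_map _ _

end Vale.Agent.P163.Decay
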